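import Mathlib
import Vale.Agent.P245.H14.QCc

/-!
# P245: the logarithmic Sobolev inequality for quasi-concave functions (row QC)
-/

open MeasureTheory Metric Set Filter
open scoped ENNReal Topology ContDiff

namespace Vale.Agent.P245.H14


variable {n : ℕ} {μ : Measure (EuclideanSpace ℝ (Fin n))}

theorem norm_gradient (f : (EuclideanSpace ℝ (Fin n)) → ℝ) (x : EuclideanSpace ℝ (Fin n)) : ‖gradient f x‖ = ‖fderiv ℝ f x‖ := by
  unfold gradient
  exact LinearIsometryEquiv.norm_map _ _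

/-- **Row QC**, threshold form: only the level sets above `|E f| + T √Var f` are convex. -/
theorem qcT [IsProbabilityMeasure μ] (h : HasLogConcaveDensity μ) {K P : ℝ} (hK : 0 < K)
    (hint : Integrable (fun x => ‖x‖) μ) (hcc : Conc μ K)
    (hP : ∀ f : (EuclideanSpace ℝ (Fin n)) → ℝ, ContDiff ℝ ∞ f → HasCompactSupport f →
      (∫ x, f x ^ 2 ∂μ) - (∫ x, f x ∂μ) ^ 2 ≤ P * ∫ x, ‖gradient f x‖ ^ 2 ∂μ)
    {f : (EuclideanSpace ℝ (Fin n)) → ℝ} (hf : ContDiff ℝ ∞ f) (hcs : HasCompactSupport f) {T : ℝ} (hT : 2 ≤ T)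
    (hq : ∀ t : ℝ, |∫ x, f x ∂μ| + T * √((∫ x, f x ^ 2 ∂μ) - (∫ x, f x ∂μ) ^ 2) < t →
      Convex ℝ {x | t < |f x|}) :
    Entropy μ (fun x => f x ^ 2) ≤
      ((81 + 6 * Real.log (T / 2)) * P + 3072 * K) * ∫ x, ‖gradient f x‖ ^ 2 ∂μ := by
  obtain ⟨B, hB⟩ := hf.continuous.bounded_above_of_compact_support hcs
  have hB0 : ∀ x, |f x| ≤ B := fun x => by rw [← Real.norm_eq_abs]; exact hB x
  have hBf : ∀ x, |(|f x|)| ≤ B := fun x => by rw [abs_abs]; exact hB0 x
  set m := |∫ x, f x ∂μ| with hm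
  have hm0 : 0 ≤ m := abs_nonneg _
  set V := (∫ x, f x ^ 2 ∂μ) - (∫ x, f x ∂μ) ^ 2 with hV
  set I := ∫ x, ‖gradient f x‖ ^ 2 ∂μ with hI
  have hI' : I = ∫ x, ‖fderiv ℝ f x‖ ^ 2 ∂μ := by
    rw [hI]; simp only [norm_gradient]
  have j1 : Integrable f μ := int_comp (Φ := fun y => y) continuous_id hf.continuous hB0
  have j2 : Integrable (fun x => f x ^ 2) μ :=
    int_comp (Φ := fun y => y ^ 2) (continuous_pow 2) hf.continuous hB0
  have j3 : Integrable (fun x => (f x - ∫ y, f y ∂μ) ^ 2) μ :=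
    int_comp (Φ := fun y => (y - ∫ y, f y ∂μ) ^ 2) (by fun_prop) hf.continuous hB0
  have hVeq : ∫ x, (f x - ∫ y, f y ∂μ) ^ 2 ∂μ = V := by
    have e : ∀ x, (f x - ∫ y, f y ∂μ) ^ 2
        = f x ^ 2 - 2 * (∫ y, f y ∂μ) * f x + (∫ y, f y ∂μ) ^ 2 := fun x => by ring
    simp only [e]
    have k1 : Integrable (fun x => 2 * (∫ y, f y ∂μ) * f x) μ := j1.const_mul _
    have k2 : Integrable (fun x => f x ^ 2 - 2 * (∫ y, f y ∂μ) * f x) μ := j2.sub k1
    rw [integral_add k2 (integrable_const _), integral_sub j2 k1, integral_const_mul,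
      integral_const, probReal_univ, one_smul, hV]
    ring
  have hpt : ∀ x, (|f x| - m) ^ 2 ≤ (f x - ∫ y, f y ∂μ) ^ 2 := fun x => by
    rw [← sq_abs (|f x| - m), ← sq_abs (f x - ∫ y, f y ∂μ)]
    exact pow_le_pow_left₀ (abs_nonneg _) (abs_abs_sub_abs_le_abs_sub _ _) 2
  have j4 : Integrable (fun x => (|f x| - m) ^ 2) μ :=
    int_comp (Φ := fun y => (y - m) ^ 2) (by fun_prop) hf.continuous.abs hBf
  have hV1 : ∫ x, (|f x| - m) ^ 2 ∂μ ≤ V := by
    rw [← hVeq]; exact integral_mono j4 j3 hpt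
  have hV0 : 0 ≤ V := le_trans (integral_nonneg fun x => sq_nonneg _) hV1
  have hVP : V ≤ P * I := hP f hf hcs
  have hTl : 0 ≤ Real.log (T / 2) := Real.log_nonneg (by linarith)
  refine le_of_forall_pos_le_add fun ε hε => ?_
  set M := V + ε / 32 with hMd
  have hM : 0 < M := by positivity
  set R := T ^ 2 / 4 with hR
  have hR1 : 1 ≤ R := by rw [hR]; nlinarith
  have hMR : 0 < M * R := by positivity
  have hlR : Real.log R = 2 * Real.log (T / 2) := by
    rw [hR, show T ^ 2 / 4 = (T / 2) ^ 2 by ring, Real.log_pow]; norm_num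
  have j5 : Integrable (fun x => uu m |f x| ^ 2) μ :=
    int_comp (Φ := fun y => uu m y ^ 2) (continuous_uu.pow 2) hf.continuous.abs hBf
  have huV : ∫ x, uu m |f x| ^ 2 ∂μ ≤ V := by
    refine le_trans (integral_mono j5 j4 fun x => ?_) hV1
    show uu m |f x| ^ 2 ≤ (|f x| - m) ^ 2
    unfold uu
    rcases le_total (|f x| - m) 0 with h1 | h1
    · rw [max_eq_right h1, zero_pow two_ne_zero]; exact sq_nonneg _
    · rw [max_eq_left h1]
  have hu : ∫ x, uu m |f x| ^ 2 ∂μ ≤ M * R := by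
    have h1 : V ≤ M := by rw [hMd]; linarith [show 0 < ε / 32 by positivity]
    nlinarith
  have hq' : ∀ t : ℝ, m + 2 * √(M * R) < t → Convex ℝ {x | t < |f x|} := by
    intro t ht
    refine hq t (lt_of_le_of_lt ?_ ht)
    have h1 : √(M * R) = √M * (T / 2) := by
      rw [Real.sqrt_mul hM.le, hR, show T ^ 2 / 4 = (T / 2) ^ 2 by ring,
        Real.sqrt_sq (by linarith)]
    have h2 : √V ≤ √M := Real.sqrt_le_sqrt (by rw [hMd]; linarith [show 0 < ε / 32 by positivity])
    have h3 := Real.sqrt_nonneg V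
    rw [h1]
    nlinarith
  have hLam := lam_le h hK hint hcc hf hcs hq' hm0 hMR hu
  rw [← hI'] at hLam
  have j6 : Integrable (fun x => uu m |f x| ^ 2 * ll m (M * R) |f x|) μ :=
    int_comp (Φ := fun y => uu m y ^ 2 * ll m (M * R) y)
      ((continuous_uu.pow 2).mul continuous_ll) hf.continuous.abs hBf
  have j6' : Integrable (fun x => uu m |f x| ^ 2 * ll m M |f x|) μ :=
    int_comp (Φ := fun y => uu m y ^ 2 * ll m M y)
      ((continuous_uu.pow 2).mul continuous_ll) hf.continuous.abs hBf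
  have hLam2 : ∫ x, uu m |f x| ^ 2 * ll m M |f x| ∂μ
      ≤ (∫ x, uu m |f x| ^ 2 * ll m (M * R) |f x| ∂μ)
        + Real.log R * ∫ x, uu m |f x| ^ 2 ∂μ := by
    rw [← integral_const_mul, ← integral_add j6 (j5.const_mul _)]
    refine integral_mono j6' (j6.add (j5.const_mul _)) fun x => ?_
    show uu m |f x| ^ 2 * ll m M |f x|
      ≤ uu m |f x| ^ 2 * ll m (M * R) |f x| + Real.log R * uu m |f x| ^ 2
    have := mul_le_mul_of_nonneg_left (ll_le_ll (m := m) hM hR1 |f x|)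
      (sq_nonneg (uu m |f x|))
    linarith
  have j7 : Integrable (fun x => f x ^ 2 * Real.log (f x ^ 2)) μ :=
    int_comp (Φ := fun y => y ^ 2 * Real.log (y ^ 2))
      (Real.continuous_mul_log.comp (continuous_pow 2)) hf.continuous hB0
  set F := ∫ x, f x ^ 2 ∂μ with hF
  have hF0 : 0 ≤ F := integral_nonneg fun x => sq_nonneg _
  have hc : 0 < m ^ 2 + M := by positivity
  -- variational formula
  have hvar : F * Real.log (m ^ 2 + M) + F - (m ^ 2 + M) ≤ F * Real.log F := by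
    rcases hF0.eq_or_lt with h0 | hFp
    · rw [← h0]; simp only [zero_mul, zero_add]; linarith
    · have h1 := Real.log_le_sub_one_of_pos (show 0 < (m ^ 2 + M) / F by positivity)
      rw [Real.log_div hc.ne' hFp.ne'] at h1
      have h2 := mul_le_mul_of_nonneg_left h1 hF0
      have h3 : F * ((m ^ 2 + M) / F - 1) = (m ^ 2 + M) - F := by field_simp
      rw [h3] at h2
      linarith
  have hpoint : ∀ x, f x ^ 2 * Real.log (f x ^ 2) - f x ^ 2 * Real.log (m ^ 2 + M) - f x ^ 2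
      + (m ^ 2 + M) ≤ 37 * (|f x| - m) ^ 2 + 32 * M + 3 * (uu m |f x| ^ 2 * ll m M |f x|) := by
    intro x
    have := ent_pt hm0 hM (abs_nonneg (f x))
    rwa [sq_abs] at this
  have k3 : Integrable (fun x => f x ^ 2 * Real.log (m ^ 2 + M)) μ := j2.mul_const _
  have k4 : Integrable (fun x => f x ^ 2 * Real.log (f x ^ 2)
      - f x ^ 2 * Real.log (m ^ 2 + M)) μ := j7.sub k3
  have k5 : Integrable (fun x => f x ^ 2 * Real.log (f x ^ 2)
      - f x ^ 2 * Real.log (m ^ 2 + M) - f x ^ 2) μ := k4.sub j2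
  have k6 : Integrable (fun x => f x ^ 2 * Real.log (f x ^ 2)
      - f x ^ 2 * Real.log (m ^ 2 + M) - f x ^ 2 + (m ^ 2 + M)) μ := k5.add (integrable_const _)
  have l1 : Integrable (fun x => 37 * (|f x| - m) ^ 2) μ := j4.const_mul _
  have l2 : Integrable (fun x => 37 * (|f x| - m) ^ 2 + 32 * M) μ := l1.add (integrable_const _)
  have l3 : Integrable (fun x => 3 * (uu m |f x| ^ 2 * ll m M |f x|)) μ := j6'.const_mul _
  have l4 : Integrable (fun x => 37 * (|f x| - m) ^ 2 + 32 * M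
      + 3 * (uu m |f x| ^ 2 * ll m M |f x|)) μ := l2.add l3
  have hint2 := integral_mono k6 l4 hpoint
  rw [integral_add k5 (integrable_const _), integral_sub k4 j2, integral_sub j7 k3,
    integral_mul_const, integral_add l2 l3, integral_add l1 (integrable_const _),
    integral_const_mul, integral_const_mul, integral_const_mul, integral_const, integral_const,
    probReal_univ, one_smul, one_smul] at hint2
  have hEnt : Entropy μ (fun x => f x ^ 2)
      = (∫ x, f x ^ 2 * Real.log (f x ^ 2) ∂μ) - F * Real.log F := rfl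
  rw [hEnt]
  have hfin : 32 * M = 32 * V + ε := by rw [hMd]; ring
  have hlV : Real.log R * ∫ x, uu m |f x| ^ 2 ∂μ ≤ 2 * (Real.log (T / 2) * V) := by
    rw [hlR]
    have := mul_le_mul_of_nonneg_left huV hTl
    linarith
  have hPI : (81 + 6 * Real.log (T / 2)) * V ≤ (81 + 6 * Real.log (T / 2)) * (P * I) :=
    mul_le_mul_of_nonneg_left hVP (by positivity)
  have hexp : ((81 + 6 * Real.log (T / 2)) * P + 3072 * K) * I
      = (81 + 6 * Real.log (T / 2)) * (P * I) + 3072 * K * I := by ring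
  have hexp2 : (81 + 6 * Real.log (T / 2)) * V = 81 * V + 6 * (Real.log (T / 2) * V) := by ring
  rw [hexp]
  linarith [hLam, hLam2, hint2, hvar, hV1]

/-- **Row QC**: Q1's inequality for quasi-concave `|f|`. -/
theorem qc [IsProbabilityMeasure μ] (h : HasLogConcaveDensity μ) {K P : ℝ} (hK : 0 < K)
    (hint : Integrable (fun x => ‖x‖) μ) (hcc : Conc μ K)
    (hP : ∀ f : (EuclideanSpace ℝ (Fin n)) → ℝ, ContDiff ℝ ∞ f → HasCompactSupport f →
      (∫ x, f x ^ 2 ∂μ) - (∫ x, f x ∂μ) ^ 2 ≤ P * ∫ x, ‖gradient f x‖ ^ 2 ∂μ)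
    {f : (EuclideanSpace ℝ (Fin n)) → ℝ} (hf : ContDiff ℝ ∞ f) (hcs : HasCompactSupport f)
    (hq : ∀ t : ℝ, 0 < t → Convex ℝ {x | t < |f x|}) :
    Entropy μ (fun x => f x ^ 2) ≤ (81 * P + 3072 * K) * ∫ x, ‖gradient f x‖ ^ 2 ∂μ := by
  have := qcT h hK hint hcc hP hf hcs le_rfl fun t ht => hq t (lt_of_le_of_lt ?_ ht)
  · simpa using this
  · positivity

end Vale.Agent.P245.H14
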